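import Mathlib

/-!
P328, window lemma (pure real inequality) for the negative-correlation theorem of the
family with two fat rows and unit rows.

For a positive log-concave weight `w` on `0..m` (with one more value `w (m+1)`), a function
`φ0` whose consecutive increments are controlled by the drops of the ratios
`w (i+1) / w i` times nonnegative numbers `e i`, and a shift `σ` of the first value, the
weighted variance of `φ = φ0 + σ·1[i = 0]` is bounded by an explicit linear form in the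
`e i` and `σ ^ 2`.
-/

namespace Vale.Agent.Lib.P328.H80

open Finset

/-- Cauchy–Schwarz for two terms, in product form. -/
theorem sq_add_le_mul {x δ A a E ε : ℝ} (hA : 0 ≤ A) (ha : 0 ≤ a) (hE : 0 ≤ E) (hε : 0 ≤ ε)
    (hx : x ^ 2 ≤ A * E) (hδ : δ ^ 2 ≤ a * ε) : (x + δ) ^ 2 ≤ (A + a) * (E + ε) := by
  have h1 : (x * δ) ^ 2 ≤ ((A * ε + a * E) / 2) ^ 2 := by
    have h2 : (x * δ) ^ 2 ≤ (A * E) * (a * ε) := by
      rw [mul_pow]
      exact mul_le_mul hx hδ (sq_nonneg _) (mul_nonneg hA hE)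
    nlinarith [sq_nonneg (A * ε - a * E)]
  have h3 : 0 ≤ (A * ε + a * E) / 2 := by positivity
  have h4 : x * δ ≤ (A * ε + a * E) / 2 := by
    have := abs_le_of_sq_le_sq' h1 h3
    exact this.2
  nlinarith

/-- initial sums `A k = w 0 + ... + w k` -/
def psum (w : ℕ → ℝ) (k : ℕ) : ℝ := ∑ i ∈ range (k + 1), w i

/-- the shifted function -/
def shiftφ (φ0 : ℕ → ℝ) (σ : ℝ) (i : ℕ) : ℝ := φ0 i + if i = 0 then σ else 0

/-- the weighted variance numerator over `0..m`: sum of w times sum of w φ² minus the square of the sum of w φ -/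
def wvar (w φ : ℕ → ℝ) (m : ℕ) : ℝ :=
  (∑ i ∈ range (m + 1), w i) * (∑ i ∈ range (m + 1), w i * φ i ^ 2)
    - (∑ i ∈ range (m + 1), w i * φ i) ^ 2

/-- the sharp right-hand side -/
def wrhs (w e : ℕ → ℝ) (σ : ℝ) (m : ℕ) : ℝ :=
  ∑ τ ∈ range m, e τ * (w (τ + 1) * psum w m - w (m + 1) * psum w τ)
    + σ ^ 2 * (w 1 * psum w m - w 0 * w (m + 1))


theorem psum_succ (w : ℕ → ℝ) (k : ℕ) : psum w (k + 1) = psum w k + w (k + 1) := by
  unfold psum
  rw [sum_range_succ]

theorem psum_zero (w : ℕ → ℝ) : psum w 0 = w 0 := by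
  unfold psum
  simp

/-- increments along the path, without the shift -/
theorem path_bound (w φ0 e : ℕ → ℝ) (m : ℕ)
    (hw : ∀ i ≤ m, 0 < w i) (hR : ∀ i < m, w i * w (i + 2) ≤ w (i + 1) ^ 2)
    (he : ∀ i < m, 0 ≤ e i)
    (hφ : ∀ i < m, (φ0 (i + 1) - φ0 i) ^ 2 ≤ (w (i + 1) / w i - w (i + 2) / w (i + 1)) * e i)
    (i j : ℕ) (hij : i ≤ j) (hj : j ≤ m) :
    (φ0 j - φ0 i) ^ 2 ≤ (w (i + 1) / w i - w (j + 1) / w j) * ∑ τ ∈ Ico i j, e τ ∧
      0 ≤ w (i + 1) / w i - w (j + 1) / w j := by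
  induction j, hij using Nat.le_induction with
  | base => simp
  | succ j hij ih =>
    have hjm : j < m := by omega
    obtain ⟨ih1, ih2⟩ := ih (by omega)
    have hwj : 0 < w j := hw j (by omega)
    have hwj1 : 0 < w (j + 1) := hw (j + 1) hj
    have ha : 0 ≤ w (j + 1) / w j - w (j + 2) / w (j + 1) := by
      have h := hR j hjm
      rw [div_sub_div _ _ hwj.ne' hwj1.ne']
      apply div_nonneg _ (mul_pos hwj hwj1).le
      nlinarith
    have hE : 0 ≤ ∑ τ ∈ Ico i j, e τ := by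
      apply sum_nonneg
      intro τ hτ
      rw [mem_Ico] at hτ
      exact he τ (by omega)
    have hstep := sq_add_le_mul ih2 ha hE (he j hjm) ih1 (hφ j hjm)
    constructor
    · rw [sum_Ico_succ_top hij]
      have e1 : φ0 (j + 1) - φ0 i = (φ0 j - φ0 i) + (φ0 (j + 1) - φ0 j) := by ring
      have e2 : w (i + 1) / w i - w (j + 1 + 1) / w (j + 1)
          = (w (i + 1) / w i - w (j + 1) / w j) + (w (j + 1) / w j - w (j + 2) / w (j + 1)) := by
        ring
      rw [e1, e2]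
      exact hstep
    · have e2 : w (i + 1) / w i - w (j + 1 + 1) / w (j + 1)
          = (w (i + 1) / w i - w (j + 1) / w j) + (w (j + 1) / w j - w (j + 2) / w (j + 1)) := by
        ring
      rw [e2]
      exact add_nonneg ih2 ha

/-- the division-free coefficient `w j * w i * (κ i + R i - R j)` -/
def gco (w : ℕ → ℝ) (j i : ℕ) : ℝ :=
  w j * w i * (if i = 0 then 1 else 0) + w j * w (i + 1) - w (j + 1) * w i

/-- pair bound, with the shift, in division-free form -/
theorem pair_bound (w φ0 e : ℕ → ℝ) (σ : ℝ) (m : ℕ)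
    (hw : ∀ i ≤ m, 0 < w i) (hR : ∀ i < m, w i * w (i + 2) ≤ w (i + 1) ^ 2)
    (he : ∀ i < m, 0 ≤ e i)
    (hφ : ∀ i < m, (φ0 (i + 1) - φ0 i) ^ 2 ≤ (w (i + 1) / w i - w (i + 2) / w (i + 1)) * e i)
    (i j : ℕ) (hij : i < j) (hj : j ≤ m) :
    w j * w i * (shiftφ φ0 σ j - shiftφ φ0 σ i) ^ 2 ≤
      gco w j i * (∑ τ ∈ Ico i j, e τ + (if i = 0 then σ ^ 2 else 0)) := by
  obtain ⟨h1, h2⟩ := path_bound w φ0 e m hw hR he hφ i j hij.le hj
  have hwi : 0 < w i := hw i (by omega)
  have hwj : 0 < w j := hw j hj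
  have hj0 : j ≠ 0 := by omega
  have hE : 0 ≤ ∑ τ ∈ Ico i j, e τ := by
    apply sum_nonneg
    intro τ hτ
    rw [mem_Ico] at hτ
    exact he τ (by omega)
  unfold shiftφ gco
  rw [if_neg hj0, add_zero]
  by_cases hi : i = 0
  · rw [if_pos hi, if_pos hi, if_pos hi]
    have hσ : (-σ) ^ 2 ≤ 1 * σ ^ 2 := by rw [one_mul, neg_sq]
    have hstep := sq_add_le_mul h2 zero_le_one hE (sq_nonneg σ) h1 hσ
    have e1 : φ0 j - (φ0 i + σ) = (φ0 j - φ0 i) + (-σ) := by ring
    have e2 : w j * w i * 1 + w j * w (i + 1) - w (j + 1) * w i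
        = w j * w i * (w (i + 1) / w i - w (j + 1) / w j + 1) := by
      field_simp
      ring
    rw [e1, e2, mul_assoc (w j * w i)]
    exact mul_le_mul_of_nonneg_left hstep (mul_pos hwj hwi).le
  · rw [if_neg hi, if_neg hi, if_neg hi, add_zero, add_zero, mul_zero, zero_add]
    have e2 : w j * w (i + 1) - w (j + 1) * w i
        = w j * w i * (w (i + 1) / w i - w (j + 1) / w j) := by
      field_simp
    rw [e2, mul_assoc (w j * w i)]
    exact mul_le_mul_of_nonneg_left h1 (mul_pos hwj hwi).le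

/-- one more point in the weighted variance -/
theorem wvar_succ (w φ : ℕ → ℝ) (m : ℕ) :
    wvar w φ (m + 1)
      = wvar w φ m + ∑ i ∈ range (m + 1), w (m + 1) * w i * (φ (m + 1) - φ i) ^ 2 := by
  have h : ∀ i, w (m + 1) * w i * (φ (m + 1) - φ i) ^ 2
      = w (m + 1) * φ (m + 1) ^ 2 * w i - 2 * w (m + 1) * φ (m + 1) * (w i * φ i)
        + w (m + 1) * (w i * φ i ^ 2) := by
    intro i
    ring
  simp_rw [h]
  rw [sum_add_distrib, sum_sub_distrib, ← mul_sum, ← mul_sum, ← mul_sum]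
  unfold wvar
  rw [sum_range_succ _ (m + 1), sum_range_succ _ (m + 1), sum_range_succ _ (m + 1)]
  ring

/-- summation by parts for a triangular double sum -/
theorem sum_mul_Ico (g e : ℕ → ℝ) (m : ℕ) :
    ∑ i ∈ range m, g i * ∑ τ ∈ Ico i m, e τ
      = ∑ τ ∈ range m, e τ * ∑ i ∈ range (τ + 1), g i := by
  induction m with
  | zero => simp
  | succ m ih =>
    rw [sum_range_succ, sum_range_succ _ m, ← ih]
    have h : ∀ i ∈ range m, g i * ∑ τ ∈ Ico i (m + 1), e τ
        = g i * ∑ τ ∈ Ico i m, e τ + e m * g i := by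
      intro i hi
      rw [mem_range] at hi
      rw [sum_Ico_succ_top hi.le]
      ring
    rw [sum_congr rfl h, sum_add_distrib, ← mul_sum, sum_range_succ _ m]
    simp
    ring

theorem sum_gco (w : ℕ → ℝ) (j τ : ℕ) :
    ∑ i ∈ range (τ + 1), gco w j i = w j * psum w (τ + 1) - w (j + 1) * psum w τ := by
  induction τ with
  | zero =>
    rw [psum_succ, psum_zero]
    simp [gco]
    ring
  | succ τ ih =>
    rw [sum_range_succ, ih, psum_succ w (τ + 1), psum_succ w τ]
    unfold gco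
    rw [if_neg (by omega)]
    ring

/-- the recursion of the sharp right-hand side -/
theorem wrhs_succ (w e : ℕ → ℝ) (σ : ℝ) (m : ℕ) :
    wrhs w e σ (m + 1) = wrhs w e σ m
      + ∑ i ∈ range (m + 1), gco w (m + 1) i
          * (∑ τ ∈ Ico i (m + 1), e τ + (if i = 0 then σ ^ 2 else 0)) := by
  have h1 : ∑ i ∈ range (m + 1), gco w (m + 1) i
        * (∑ τ ∈ Ico i (m + 1), e τ + (if i = 0 then σ ^ 2 else 0))
      = ∑ τ ∈ range (m + 1), e τ * (w (m + 1) * psum w (τ + 1) - w (m + 2) * psum w τ)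
        + gco w (m + 1) 0 * σ ^ 2 := by
    simp_rw [mul_add]
    rw [sum_add_distrib, sum_mul_Ico]
    congr 1
    · apply sum_congr rfl
      intro τ _
      rw [sum_gco]
    · rw [sum_eq_single 0]
      · simp
      · intro b _ hb
        rw [if_neg hb, mul_zero]
      · intro h
        exact absurd (mem_range.mpr (Nat.succ_pos m)) h
  have h0 : ∑ τ ∈ range m, e τ * (w (τ + 1) * psum w m - w (m + 1) * psum w τ)
      = ∑ τ ∈ range (m + 1), e τ * (w (τ + 1) * psum w m - w (m + 1) * psum w τ) := by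
    rw [sum_range_succ, sub_self, mul_zero, add_zero]
  rw [h1]
  unfold wrhs
  rw [h0]
  have h2 : ∑ τ ∈ range (m + 1), e τ * (w (τ + 1) * psum w (m + 1) - w (m + 1 + 1) * psum w τ)
      = ∑ τ ∈ range (m + 1), e τ * (w (τ + 1) * psum w m - w (m + 1) * psum w τ)
        + ∑ τ ∈ range (m + 1), e τ * (w (m + 1) * psum w (τ + 1) - w (m + 2) * psum w τ) := by
    rw [← sum_add_distrib]
    apply sum_congr rfl
    intro τ _
    rw [psum_succ w m, psum_succ w τ]
    ring
  rw [h2, psum_succ w m]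
  unfold gco
  rw [if_pos rfl]
  ring

/-- **Window lemma, sharp form.** -/
theorem window_sharp (w φ0 e : ℕ → ℝ) (σ : ℝ) (m : ℕ)
    (hw : ∀ i ≤ m, 0 < w i) (hR : ∀ i < m, w i * w (i + 2) ≤ w (i + 1) ^ 2)
    (he : ∀ i < m, 0 ≤ e i)
    (hφ : ∀ i < m, (φ0 (i + 1) - φ0 i) ^ 2 ≤ (w (i + 1) / w i - w (i + 2) / w (i + 1)) * e i) :
    wvar w (shiftφ φ0 σ) m ≤ wrhs w e σ m := by
  induction m with
  | zero =>
    unfold wvar wrhs
    simp [psum_zero]
    ring_nf
    exact le_refl _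
  | succ m ih =>
    have ih' := ih (fun i hi => hw i (by omega)) (fun i hi => hR i (by omega))
      (fun i hi => he i (by omega)) (fun i hi => hφ i (by omega))
    rw [wvar_succ, wrhs_succ]
    apply add_le_add ih'
    apply sum_le_sum
    intro i hi
    rw [mem_range] at hi
    exact pair_bound w φ0 e σ (m + 1) hw hR he hφ i (m + 1) hi le_rfl

/-- **Window lemma.** For positive weights `w 0, ..., w m` with `w (m+1) ≥ 0`, log-concave on
`0..m+1`, and increments of `φ0` controlled by the ratio drops times `e`, the weighted variance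
of `φ0 + σ·1[i = 0]` is at most the sum of `w` times the sum over `τ < m` of `w (τ+1) * e τ` plus `σ² * w 1`. -/
theorem window (w φ0 e : ℕ → ℝ) (σ : ℝ) (m : ℕ)
    (hw : ∀ i ≤ m, 0 < w i) (hw' : 0 ≤ w (m + 1))
    (hR : ∀ i < m, w i * w (i + 2) ≤ w (i + 1) ^ 2)
    (he : ∀ i < m, 0 ≤ e i)
    (hφ : ∀ i < m, (φ0 (i + 1) - φ0 i) ^ 2 ≤ (w (i + 1) / w i - w (i + 2) / w (i + 1)) * e i) :
    (∑ i ∈ range (m + 1), w i) * (∑ i ∈ range (m + 1), w i * (shiftφ φ0 σ i) ^ 2)
        - (∑ i ∈ range (m + 1), w i * shiftφ φ0 σ i) ^ 2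
      ≤ (∑ i ∈ range (m + 1), w i) * (∑ τ ∈ range m, w (τ + 1) * e τ + σ ^ 2 * w 1) := by
  have h := window_sharp w φ0 e σ m hw hR he hφ
  unfold wvar at h
  refine h.trans ?_
  unfold wrhs
  have hps : ∀ k ≤ m, 0 ≤ psum w k := by
    intro k hk
    unfold psum
    apply sum_nonneg
    intro i hi
    rw [mem_range] at hi
    exact (hw i (by omega)).le
  have hA : psum w m = ∑ i ∈ range (m + 1), w i := rfl
  rw [← hA, mul_add, mul_sum]
  apply add_le_add
  · apply sum_le_sum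
    intro τ hτ
    rw [mem_range] at hτ
    have := mul_nonneg hw' (hps τ hτ.le)
    have he' := he τ hτ
    nlinarith
  · have := mul_nonneg (hw 0 (Nat.zero_le m)).le hw'
    nlinarith [sq_nonneg σ]

end Vale.Agent.Lib.P328.H80
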